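/-
Helper62 — project S0175: additional wrappers on top of TS-B (fibrewise Tonelli for `tsΛ`,
a.e. localisation of `tsΛ` on `Y × [0,1)`, testing `μ.map T = μ` against measurable functions).
-/
import Mathlib
import Crest.Agent.Helper32.TwoShellDefs
import Crest.Agent.Helper62.TwoShell.TSB

set_option autoImplicit false
set_option linter.unusedSectionVars false
open MeasureTheory Set
open scoped ENNReal
open Crest.AnalysisR.OT
open Crest.Agent.Helper32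

namespace Crest.Agent.Helper62

/-- A measurable map preserves a measure as soon as it preserves all lintegrals of measurable
functions. -/
theorem map_eq_of_lintegral {E : Type*} [MeasurableSpace E] (μ : Measure E) (T : E → E)
    (hT : Measurable T)
    (h : ∀ f : E → ℝ≥0∞, Measurable f → ∫⁻ x, f (T x) ∂μ = ∫⁻ x, f x ∂μ) : μ.map T = μ := by
  ext s hs
  rw [Measure.map_apply hT hs]
  have h1 := h (s.indicator fun _ => 1) (measurable_const.indicator hs)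
  have e1 : ∫⁻ x, (s.indicator fun _ => (1:ℝ≥0∞)) (T x) ∂μ = μ (T ⁻¹' s) := by
    have : (fun x => (s.indicator fun _ => (1:ℝ≥0∞)) (T x)) =
        (T ⁻¹' s).indicator fun _ => (1:ℝ≥0∞) := by
      ext x
      by_cases hx : T x ∈ s
      · simp [indicator, hx]
      · simp [indicator, hx]
    rw [this, lintegral_indicator (hT hs)]
    simp
  have e2 : ∫⁻ x, (s.indicator fun _ => (1:ℝ≥0∞)) x ∂μ = μ s := by
    rw [lintegral_indicator hs]; simp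
  rw [← e1, ← e2, h1]

variable {E Y : Type*} [MeasurableSpace E] [StandardBorelSpace E] [MeasurableSpace Y]
  [StandardBorelSpace Y] (ν : Measure Y) [IsFiniteMeasure ν] (ΦA ΦB : Y × ℝ → E) (g : Y → ℝ)
  (c : E × E × E → ℝ≥0∞) (u : E → ℝ)

/-- `tsΛ` lives on `Y × [0,1)`. -/
theorem tsΛ_ae_mem : ∀ᵐ p ∂(tsΛ ν), p.2 ∈ Ico (0:ℝ) 1 := by
  unfold tsΛ
  have h1 : ∀ᵐ t ∂(volume.restrict (Ico (0:ℝ) 1)), t ∈ Ico (0:ℝ) 1 :=
    ae_restrict_mem measurableSet_Ico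
  have : ∀ᵐ p ∂(ν.prod (volume.restrict (Ico (0:ℝ) 1))), p.2 ∈ Ico (0:ℝ) 1 := by
    have hq : Measure.QuasiMeasurePreserving (Prod.snd : Y × ℝ → ℝ)
        (ν.prod (volume.restrict (Ico (0:ℝ) 1))) (volume.restrict (Ico (0:ℝ) 1)) :=
      Measure.quasiMeasurePreserving_snd
    exact hq.ae h1
  exact this

/-- Two integrands agreeing on `Y × [0,1)` have the same `tsΛ`-integral. -/
theorem ts_lintegral_congr_Ico (F G : Y × ℝ → ℝ≥0∞)
    (h : ∀ b t, t ∈ Ico (0:ℝ) 1 → F (b, t) = G (b, t)) :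
    ∫⁻ p, F p ∂(tsΛ ν) = ∫⁻ p, G p ∂(tsΛ ν) := by
  refine lintegral_congr_ae ?_
  filter_upwards [tsΛ_ae_mem ν] with p hp
  exact h p.1 p.2 hp

/-- Tonelli for `tsΛ`. -/
theorem ts_fiber (F : Y × ℝ → ℝ≥0∞) (hF : Measurable F) :
    ∫⁻ p, F p ∂(tsΛ ν) = ∫⁻ b, (∫⁻ t in Ico (0:ℝ) 1, F (b, t)) ∂ν := by
  unfold tsΛ
  exact lintegral_prod _ hF.aemeasurable

/-- Fibrewise comparison of `tsΛ`-integrals. -/
theorem ts_fiber_congr (F G : Y × ℝ → ℝ≥0∞) (hF : Measurable F) (hG : Measurable G)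
    (h : ∀ b, ∫⁻ t in Ico (0:ℝ) 1, F (b, t) = ∫⁻ t in Ico (0:ℝ) 1, G (b, t)) :
    ∫⁻ p, F p ∂(tsΛ ν) = ∫⁻ p, G p ∂(tsΛ ν) := by
  rw [ts_fiber ν F hF, ts_fiber ν G hG]
  exact lintegral_congr h

/-- Fibrewise inequality of `tsΛ`-integrals. -/
theorem ts_fiber_mono (F G : Y × ℝ → ℝ≥0∞) (hF : Measurable F) (hG : Measurable G)
    (h : ∀ b, ∫⁻ t in Ico (0:ℝ) 1, F (b, t) ≤ ∫⁻ t in Ico (0:ℝ) 1, G (b, t)) :
    ∫⁻ p, F p ∂(tsΛ ν) ≤ ∫⁻ p, G p ∂(tsΛ ν) := by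
  rw [ts_fiber ν F hF, ts_fiber ν G hG]
  exact lintegral_mono h

/-- The `tsμ`-integral only sees the values on the two shells. -/
theorem ts_lintegral_congr_S (hA : Measurable ΦA) (hB : Measurable ΦB) (f f' : E → ℝ≥0∞)
    (hf : Measurable f) (hf' : Measurable f') (h : ∀ x ∈ tsS ΦA ΦB, f x = f' x) :
    ∫⁻ x, f x ∂(tsμ ν ΦA ΦB) = ∫⁻ x, f' x ∂(tsμ ν ΦA ΦB) := by
  rw [ts_lintegral ν ΦA ΦB hA hB f hf, ts_lintegral ν ΦA ΦB hA hB f' hf']
  have e1 : ∀ p, f (ΦA p) = f' (ΦA p) := fun p => h _ (Or.inl (mem_range_self p))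
  have e2 : ∀ p, f (ΦB p) = f' (ΦB p) := fun p => h _ (Or.inr (mem_range_self p))
  simp only [e1, e2]

/-- `T#tsμ = tsμ` from the parameter-space identity (the shape used in TS-4). -/
theorem ts_map_eq (hA : Measurable ΦA) (hB : Measurable ΦB) (T : E → E) (hT : Measurable T)
    (h : ∀ f : E → ℝ≥0∞, Measurable f →
      ∫⁻ p, f (T (ΦA p)) ∂(tsΛ ν) + 2 * ∫⁻ p, f (T (ΦB p)) ∂(tsΛ ν) =
        ∫⁻ p, f (ΦA p) ∂(tsΛ ν) + 2 * ∫⁻ p, f (ΦB p) ∂(tsΛ ν)) :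
    (tsμ ν ΦA ΦB).map T = tsμ ν ΦA ΦB := by
  refine map_eq_of_lintegral _ T hT fun f hf => ?_
  rw [ts_lintegral ν ΦA ΦB hA hB (fun x => f (T x)) (hf.comp hT),
    ts_lintegral ν ΦA ΦB hA hB f hf]
  exact h f hf

end Crest.Agent.Helper62
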